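import Vale.Agent.P049.TS.Rate.T1

/-!
Phase IIIb, functional `B2 = T₁² / (σ^386 x)²`, `x = N / σ^680`: abstract part of the rate
(`T₁² / N²` along one uniform step, no tilt).
-/

set_option linter.unusedSectionVars false

namespace Vale.Agent.P049.TS.R950

open Matrix Finset D12 Rate

variable {ι : Type*} [Fintype ι] [DecidableEq ι]
variable {F : Finset ι} {forb : ι → ι → Prop} {Zp Zm Z Z' : Matrix ι ι ℝ}
  {b t s v w e : ℝ}

/-- **`T₁² / N²` along one uniform step** -/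
theorem T1sq_rate (c : Ctl F Z b t s v w) (hP : Tilt.IsPair Zp Zm Z Z') {N δ : ℝ}
    (hN : (F.card : ℝ) = N) (hN2 : 2 < N) (he : 0 ≤ e)
    (hE : (((F ×ˢ F) \ adm F forb Zp Zm).card : ℝ) ≤ e ^ 2) (hx : |Z.trace| ≤ δ) :
    ∑ p ∈ adm F forb Zp Zm,
        ((upd Z p.1 p.2).trace ^ 2 / (N - 2) ^ 2 - Z.trace ^ 2 / N ^ 2)
      ≤ (4 * Z.trace ^ 2 * ((Z ^ 2).trace - 1)
          + 2 * δ * (2 * e * (b ^ 2 + s * v) + 6 * ((t + s ^ 2) * (b ^ 2 + 2 * (s * v))))
          + (27 * b ^ 4 + 24 * (s * v) ^ 2)) / (N - 2) ^ 2 := by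
  have hA := adm_subset F forb Zp Zm
  have hadm := adm_pairOK (F := F) (forb := forb) hP
  have m1 := T1_mean' (h := fun _ _ => 0) c hA hadm (fun p _ => by norm_num) he le_rfl hE
    (by simp)
  have m2 := T1_sq' c hA hadm
  simp only [sub_zero, one_mul, zero_mul, Finset.sum_const_zero, mul_zero, add_zero] at m1
  rw [hN] at m1
  set E1 := 2 * e * (b ^ 2 + s * v) + 6 * ((t + s ^ 2) * (b ^ 2 + 2 * (s * v))) with hE1
  set SD := ∑ p ∈ adm F forb Zp Zm, ((upd Z p.1 p.2).trace - Z.trace) with hSD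
  have hN0 : 0 < N := by linarith
  have hN2' : 0 < N - 2 := by linarith
  have hc : ((adm F forb Zp Zm).card : ℝ) ≤ N ^ 2 := by
    have := Finset.card_le_card hA
    rw [Finset.card_product] at this
    rw [← hN]
    calc ((adm F forb Zp Zm).card : ℝ) ≤ ((F.card * F.card : ℕ) : ℝ) := by exact_mod_cast this
      _ = _ := by push_cast; ring
  -- the sum as a polynomial
  have e1 : ∑ p ∈ adm F forb Zp Zm,
        ((upd Z p.1 p.2).trace ^ 2 / (N - 2) ^ 2 - Z.trace ^ 2 / N ^ 2)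
      = ((adm F forb Zp Zm).card : ℝ) * (Z.trace ^ 2 * (1 / (N - 2) ^ 2 - 1 / N ^ 2))
        + (2 * (Z.trace * SD)
            + ∑ p ∈ adm F forb Zp Zm, ((upd Z p.1 p.2).trace - Z.trace) ^ 2) / (N - 2) ^ 2 := by
    rw [← nsmul_eq_mul, ← Finset.sum_const, hSD, Finset.mul_sum, Finset.mul_sum,
      ← Finset.sum_add_distrib, Finset.sum_div, ← Finset.sum_add_distrib]
    refine Finset.sum_congr rfl fun p _ => ?_
    field_simp
    ring
  have f1 : 1 / (N - 2) ^ 2 - 1 / N ^ 2 = (4 * N - 4) / (N ^ 2 * (N - 2) ^ 2) := by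
    field_simp
    ring
  have f2 : ((adm F forb Zp Zm).card : ℝ) * (Z.trace ^ 2 * (1 / (N - 2) ^ 2 - 1 / N ^ 2))
      ≤ (Z.trace ^ 2 * (4 * N - 4)) / (N - 2) ^ 2 := by
    rw [f1]
    have h0 : 0 ≤ Z.trace ^ 2 * ((4 * N - 4) / (N ^ 2 * (N - 2) ^ 2)) := by
      have : 0 ≤ 4 * N - 4 := by linarith
      positivity
    refine (mul_le_mul_of_nonneg_right hc h0).trans (le_of_eq ?_)
    field_simp
  have f3 : 2 * (Z.trace * SD) ≤ 4 * Z.trace ^ 2 * ((Z ^ 2).trace - N) + 2 * δ * E1 := by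
    have g1 : Z.trace * (SD - 2 * (Z.trace * ((Z ^ 2).trace - N))) ≤ δ * E1 := by
      refine (le_abs_self _).trans ?_
      rw [abs_mul]
      exact mul_le_mul hx m1 (abs_nonneg _) ((abs_nonneg _).trans hx)
    nlinarith
  rw [e1]
  refine (add_le_add f2 (div_le_div_of_nonneg_right (add_le_add f3 m2) (sq_nonneg _))).trans ?_
  rw [← add_div]
  refine div_le_div_of_nonneg_right (le_of_eq ?_) (sq_nonneg _)
  ring

end Vale.Agent.P049.TS.R950
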