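import Vale.Agent.P049.TS.R950.B2abs
import Vale.Agent.P049.TS.Rate3.Num12
import Vale.Agent.P049.TS.Asm.EnvB

/-!
Rate lemma `B2` (`g2B = T₁² σ^590 / N²`) of the phase IIIb.
-/

set_option linter.unusedSectionVars false
set_option exponentiation.threshold 3000

namespace Vale.Agent.P049.TS.R950

open Matrix Finset Vale.Agent.P049.TS.Asm
open Vale.Agent.P049.TS.Rate (errT1E sqT1E env8 env8_bound)

/-- right-hand side: `r = σ^590 / (N-2)²`, `x = |T₁|` -/
def b2E (b t s v e r x : Ex) : Ex :=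
  (4 * x ^ 2 * t ^ 2 + 2 * x * errT1E b t s v e + sqT1E b s v) * r

abbrev b2e : Ex := b2E (.v 0) (.v 1) (.v 2) (.v 3) (.v 4) (.v 6) (.v 7)

theorem b2e_ev (b t s v e g r x : ℝ) :
    (4 * x ^ 2 * t ^ 2
        + 2 * x * (2 * e * (b ^ 2 + s * v) + 6 * ((t + s ^ 2) * (b ^ 2 + 2 * (s * v))))
        + (27 * b ^ 4 + 24 * (s * v) ^ 2)) * r = b2e.ev (env8 b t s v e g r x) := by
  simp only [b2e, b2E, errT1E, sqT1E, Ex.ev_add, Ex.ev_mul, Ex.ev_pow, Ex.ev_ofNat, Ex.ev_v, env8]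
  push_cast
  ring

variable {ι : Type*} [Fintype ι] [DecidableEq ι]
variable {Zp Zm Z : Matrix ι ι ℝ} {ε : ℝ}

/-- **rate of `B2`** -/
theorem rate_B2 (d : ℕ) (_hd : 3 ≤ d) : ∃ C : ℝ, ∃ s0 : ℕ, ∀ (ι : Type*) [Fintype ι]
    [DecidableEq ι] (n k : ℕ) (F : Finset ι) (Zp Zm : Matrix ι ι ℝ) (forb : ι → ι → Prop),
    s0 ≤ sR n → EnvB n d k F Zp Zm forb → ∀ (ε : ℝ) (Z : Matrix ι ι ℝ), Sgn Zp Zm ε Z →
    ∑ p ∈ adm F forb Zp Zm, (g2B n d (k + 1) (upd Z p.1 p.2) - g2B n d k Z) ≤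
      C * rT n d k := by
  refine ⟨b2e.cs (env8 2 2 1 2 ((d : ℝ) + 25) 1 4 1), 2000, ?_⟩
  intro ι _ _ n k F Zp Zm forb hσ h ε Z hs
  obtain ⟨Z', hP⟩ := hs.isPair
  have o := h.oneB hs
  have c := o.ctl
  have hσ0 : (0 : ℝ) < sR n := by exact_mod_cast (by omega : 0 < sR n)
  have hN4 := four_le_NkB hσ h.k_lt
  have R := rgB hσ h.k_ge h.k_lt
  have he : 0 ≤ eB n d k := eB_nonneg _ _ _
  have hE := h.card_compl_le hσ
  have hN0 : 0 < Nk n d k := by linarith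
  have hN2 : 0 < Nk n d k - 2 := by linarith
  have h1 := T1sq_rate c hP h.card (by linarith : 2 < Nk n d k) he hE (le_refl |Z.trace|)
  have e0 : ∀ p : ι × ι, g2B n d (k + 1) (upd Z p.1 p.2) - g2B n d k Z
      = (sR n : ℝ) ^ 590 * ((upd Z p.1 p.2).trace ^ 2 / (Nk n d k - 2) ^ 2
        - Z.trace ^ 2 / Nk n d k ^ 2) := by
    intro p
    unfold g2B
    rw [Nk_succ]
    ring
  simp only [e0]
  rw [← Finset.mul_sum]
  refine (mul_le_mul_of_nonneg_left h1 (by positivity)).trans ?_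
  have e1 : (sR n : ℝ) ^ 590 * ((4 * Z.trace ^ 2 * ((Z ^ 2).trace - 1)
        + 2 * |Z.trace| * (2 * eB n d k * (bB n d k ^ 2 + sB n d k * vB n d k)
          + 6 * ((tB n d k + sB n d k ^ 2) * (bB n d k ^ 2 + 2 * (sB n d k * vB n d k))))
        + (27 * bB n d k ^ 4 + 24 * (sB n d k * vB n d k) ^ 2)) / (Nk n d k - 2) ^ 2)
      ≤ b2e.ev (env8 (bB n d k) (tB n d k) (sB n d k) (vB n d k) (eB n d k) 0
          ((sR n : ℝ) ^ 590 / (Nk n d k - 2) ^ 2) |Z.trace|) := by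
    rw [← b2e_ev, ← mul_div_assoc, mul_comm, mul_div_assoc]
    refine mul_le_mul_of_nonneg_right ?_ (by positivity)
    have h3 : 4 * Z.trace ^ 2 * ((Z ^ 2).trace - 1) ≤ 4 * |Z.trace| ^ 2 * tB n d k ^ 2 := by
      rw [sq_abs]
      refine mul_le_mul_of_nonneg_left ?_ (by positivity)
      have := o.T2
      linarith
    linarith
  refine e1.trans ?_
  rw [rT_III]
  have hd0 : (0 : ℝ) ≤ d := Nat.cast_nonneg d
  obtain ⟨k1, k2, k3⟩ := env8_bound (L := LL n) (X := XX n d k) (xl := 530) (xh := 680)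
    (b := bB n d k) (t := tB n d k) (s := sB n d k) (v := vB n d k) (e := eB n d k)
    (g := 0) (r := (sR n : ℝ) ^ 590 / (Nk n d k - 2) ^ 2) (x := |Z.trace|)
    (κb := 2) (κt := 2) (κs := 1) (κv := 2) (κe := (d : ℝ) + 25) (κg := 1) (κr := 4)
    (κx := 1)
    (yb := 727) (yt := 752) (ys := -88) (yv := 1060) (ye := 1060) (yg := 0) (yr := -1880)
    (yx := 940)
    (zb := 1327) (zt := 1352) (zs := 212) (zv := 1384) (ze := 1360) (zg := 0) (zr := -3080)
    (zx := 1540)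
    ⟨c.b0, by norm_num, bB_III.le⟩
    ⟨c.t0, by norm_num, tB_III.le⟩
    ⟨c.s0, by norm_num, by rw [one_mul]; exact sB_III.le⟩
    ⟨c.v0, by norm_num, vB_III.le⟩
    ⟨he, by positivity, eB_III.le⟩
    ⟨le_rfl, by norm_num, by
      rw [one_mul]
      exact (Asm.Em_pos _ _ _ _ _ _).le⟩
    ⟨by positivity, by norm_num, by
      have h5 : Asm.Em (LL n) (XX n d k) 530 680 (-1880) (-3080)
          = (sR n : ℝ) ^ 590 / Nk n d k ^ 2 := by
        rw [Nk_eq_mo (by linarith) (LL n), sR_pow (by omega) (XX n d k), mo_pow, mo_div]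
        exact (mo_eq_Em (by norm_num) (by norm_num) (by norm_num)).symm
      rw [h5, div_le_iff₀ (by positivity)]
      have e6 : 4 * ((sR n : ℝ) ^ 590 / Nk n d k ^ 2) * (Nk n d k - 2) ^ 2
          = (sR n : ℝ) ^ 590 * (4 * (Nk n d k - 2) ^ 2 / Nk n d k ^ 2) := by
        field_simp
      rw [e6]
      refine le_mul_of_one_le_right (by positivity) ?_
      rw [one_le_div (by positivity)]
      nlinarith⟩
    ⟨abs_nonneg _, by positivity, by
      have h6 : Asm.Em (LL n) (XX n d k) 530 680 940 1540 = Nk n d k / (sR n : ℝ) ^ 295 := by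
        rw [sR_pow (by omega) (XX n d k), Nk_eq_mo (by linarith) (LL n), mo_div]
        exact (mo_eq_Em (by norm_num) (by norm_num) (by norm_num)).symm
      rw [h6, one_mul]
      exact o.T1_abs⟩
  exact Ex.bound b2e R _ _ (by decide) (by decide) k1 k2 k3

end Vale.Agent.P049.TS.R950
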